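import Vale.Agent.P213.H992.Pair

/-!
Every left Bousfield localization comes from simplicial sets.
-/

open CategoryTheory Simplicial HomotopicalAlgebra Limits SSet.modelCategoryQuillen
  MorphismProperty

namespace Vale.Agent.P213.H992

theorem kq : Wfs (monomorphisms SSet.{0}) P213.whe.{0} kanFib.{0} :=
  wfs_of_isModel P213.kanQuillen

theorem kq_rlp : (monomorphisms SSet.{0}).rlp = kanFib.{0} ⊓ P213.whe.{0} :=
  have := kq.wfs₁
  rlp_eq_of_wfs _ _

variable {D : Type 1} [Category.{0} D] {L : SSet.{0} ⥤ D} {R : D ⥤ SSet.{0}}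

variable {adj : L ⊣ R} {cof w fib : MorphismProperty D} (hP : Pair adj cof w fib)

include hP

namespace Pair

theorem map_eps_iff {V : MorphismProperty D} [V.HasTwoOutOfThreeProperty] (hw : w ≤ V) {X Y : D}
    (f : X ⟶ Y) : V (L.map (R.map f)) ↔ V f := by
  rw [← V.postcomp_iff _ _ (hw _ (hP.counit Y)), eps_nat, V.precomp_iff _ _ (hw _ (hP.counit X))]

/-- Every left Bousfield localization of the model structure of `D` comes from a left Bousfield
localization of the Kan-Quillen model structure. -/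
theorem conv {V G : MorphismProperty D} (hw : w ≤ V) (hV : Wfs cof V G) :
    Loc (V.inverseImage L) (monomorphisms SSet.{0} ⊓ V.inverseImage L).rlp := by
  have i1 := hV.two
  have i2 := hV.retr
  have i3 := hV.wfs₂
  have i4 := kq.wfs₁
  set W := V.inverseImage L with hW
  have hle : P213.whe.{0} ≤ W := fun K K' f hf => hw _ ((hP.map_w f).2 hf)
  have hG : G ≤ fib := by
    have i5 := hP.model.wfs₂
    rw [← rlp_eq_of_wfs (cof ⊓ V) G, ← rlp_eq_of_wfs (cof ⊓ w) fib]
    exact antitone_rlp (inf_le_inf_left _ hw)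
  have hRG : ∀ ⦃X Y : D⦄ (p : X ⟶ Y), G p → (monomorphisms SSet.{0} ⊓ W).rlp (R.map p) := by
    intro X Y p hp A B i hi
    have him : Mono i := hi.1
    rw [← adj.hasLiftingProperty_iff]
    rw [← rlp_eq_of_wfs (cof ⊓ V) G] at hp
    exact hp _ ⟨hP.cof_map i, hi.2⟩
  have htriv : kanFib.{0} ⊓ P213.whe.{0} ≤ (monomorphisms SSet.{0} ⊓ W).rlp := by
    rw [← kq_rlp]
    exact antitone_rlp inf_le_left
  have hFW : (monomorphisms SSet.{0} ⊓ W).rlp ⊓ W = kanFib.{0} ⊓ P213.whe.{0} := by
    apply le_antisymm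
    · rintro X Y p ⟨hp1, hp2⟩
      let d := factorizationData (monomorphisms SSet.{0}) (kanFib.{0} ⊓ P213.whe.{0}) p
      have hi : W d.i := by
        refine W.of_postcomp d.i d.p (hle _ d.hp.2) ?_
        rw [d.fac]
        exact hp2
      have hl : HasLiftingProperty d.i p := hp1 _ ⟨d.hi, hi⟩
      have i6 : (kanFib.{0} ⊓ P213.whe.{0}).IsStableUnderRetracts := by
        rw [← kq_rlp]
        infer_instance
      exact MorphismProperty.of_retract (RetractArrow.ofRightLiftingProperty d.fac) d.hp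
    · exact fun X Y p hp => ⟨htriv _ hp, hle _ hp.2⟩
  refine ⟨hle, wfs_of_isModel (isModel_of_fac inferInstance inferInstance inferInstance ?_
    inferInstance inferInstance fun A B f => ?_)⟩
  · rw [hFW]
    exact i4
  · let d := factorizationData (cof ⊓ V) G (L.map f)
    have hd : d.i ≫ d.p = L.map f := d.fac
    have sq := IsPullback.of_hasPullback (eta adj B) (R.map d.p)
    set p₁ : pullback (eta adj B) (R.map d.p) ⟶ B := pullback.fst _ _
    set p₂ : pullback (eta adj B) (R.map d.p) ⟶ R.obj d.Z := pullback.snd _ _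
    have hp₂ : P213.whe.{0} p₂ :=
      isRightProper_sSet _ _ _ _ sq.flip ((hP.fib_iff _).1 (hG _ d.hp)) (hP.unit B)
    have hp₁ : (monomorphisms SSet.{0} ⊓ W).rlp p₁ :=
      MorphismProperty.of_isPullback (P := (monomorphisms SSet.{0} ⊓ W).rlp) sq.flip
        (hRG _ d.hp)
    let z := sq.lift f (eta adj A ≫ R.map d.i) (by
      rw [Category.assoc, ← R.map_comp, hd, eta_nat])
    have hz₁ : z ≫ p₁ = f := sq.lift_fst _ _ _
    have hz₂ : z ≫ p₂ = eta adj A ≫ R.map d.i := sq.lift_snd _ _ _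
    have hz : W z := by
      refine W.of_postcomp z p₂ (hle _ hp₂) ?_
      rw [hz₂]
      refine W.comp_mem _ _ (hle _ (hP.unit A)) ?_
      exact (hP.map_eps_iff hw d.i).2 d.hi.2
    let e := factorizationData (monomorphisms SSet.{0}) (kanFib.{0} ⊓ P213.whe.{0}) z
    have he : e.i ≫ e.p = z := e.fac
    have hei : W e.i := by
      refine W.of_postcomp e.i e.p (hle _ e.hp.2) ?_
      rw [he]
      exact hz
    refine ⟨e.Z, e.i, e.p ≫ p₁, le_llp_rlp _ _ ⟨e.hi, hei⟩, hei, ?_, ?_⟩
    · exact (monomorphisms SSet.{0} ⊓ W).rlp.comp_mem _ _ (htriv _ e.hp) hp₁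
    · rw [reassoc_of% he, hz₁]

/-- Cobase changes along cofibrations. -/
theorem left_loc {V G : MorphismProperty D} (hw : w ≤ V) (hV : Wfs cof V G)
    ⦃A B A' B' : D⦄ (t : A ⟶ B) (l : A ⟶ A') (r : B ⟶ B') (b : A' ⟶ B')
    (sq : IsPushout t l r b) (ht : cof t) (hl : V l) : V r := by
  have i0 := hV.colim
  have i1 := hV.two
  have i3 := hV.wfs₂
  have i4 := hV.wfs₁
  have hc : cof.IsStableUnderCobaseChange := by
    rw [← hP.llp_triv]
    infer_instance
  let d := factorizationData (cof ⊓ V) G l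
  have hd : d.i ≫ d.p = l := d.fac
  have sq₁ := IsPushout.of_hasPushout t d.i
  have hdp : V d.p := by
    refine V.of_precomp d.i d.p d.hi.2 ?_
    rw [hd]
    exact hl
  have hdw : w d.p := by
    have h1 : (fib ⊓ w) d.p := by
      have h2 : fib ⊓ w = G ⊓ V := by
        have i5 := hP.model.wfs₁
        rw [← rlp_eq_of_wfs cof (fib ⊓ w), ← rlp_eq_of_wfs cof (G ⊓ V)]
      rw [h2]
      exact ⟨d.hp, hdp⟩
    exact h1.2
  let k := sq₁.desc r (d.p ≫ b) (by rw [reassoc_of% hd, sq.w])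
  have hk₁ : pushout.inl t d.i ≫ k = r := sq₁.inl_desc _ _ _
  have hk₂ : pushout.inr t d.i ≫ k = d.p ≫ b := sq₁.inr_desc _ _ _
  have sq₂ : IsPushout (pushout.inr t d.i) d.p k b := by
    refine (IsPushout.of_left (h₁₁ := d.i) (h₂₁ := pushout.inl t d.i) ?_ hk₂.symm sq₁.flip).flip
    rw [hd, hk₁]
    exact sq.flip
  have h1 : V (pushout.inl t d.i) := by
    have h2 : (cof ⊓ V) (pushout.inl t d.i) := by
      have i7 : (cof ⊓ V).IsStableUnderCobaseChange := by
        rw [← llp_eq_of_wfs (cof ⊓ V) G]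
        infer_instance
      exact (cof ⊓ V).of_isPushout sq₁ d.hi
    exact h2.2
  have h2 : cof (pushout.inr t d.i) := cof.of_isPushout sq₁.flip ht
  have h3 : w k := hP.left _ _ _ _ sq₂ h2 hdw
  rw [← hk₁]
  exact V.comp_mem _ _ h1 (hw _ h3)

end Pair

end Vale.Agent.P213.H992
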