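import Vale.Agent.P213.H574.Defs

/-!
Statement-level definitions for left Bousfield localizations of the Thomason model structures
(kept short).
-/

open CategoryTheory Limits

namespace Vale.Agent.P213.H992

open SX

section

variable {D : Type 1} [Category.{0} D]

/-- The classes `cof`, `W`, `F` form a left Bousfield localization of a model structure with
cofibrations `cof` and weak equivalences `w`: a model structure with the same cofibrations and
more weak equivalences. -/
def IsLocalization (cof w W F : MorphismProperty D) : Prop := w ≤ W ∧ IsModel cof W F

/-- The set of left Bousfield localizations; a localization is given by its weak equivalences. -/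
def Localizations (cof w : MorphismProperty D) : Set (MorphismProperty D) :=
  {W | ∃ F, IsLocalization cof w W F}

/-- Left properness. -/
def IsLeftProper (cof w : MorphismProperty D) : Prop := ∀ A B A' B' t l r b,
  IsPushout (t : A ⟶ B) (l : A ⟶ A') (r : B ⟶ B') b → cof t → w l → w r

/-- Right properness. -/
def IsRightProper (w fib : MorphismProperty D) : Prop := ∀ A B A' B' t l r b,
  IsPullback (t : A ⟶ B) (l : A ⟶ A') (r : B ⟶ B') b → fib b → w r → w l

/-- Quillen equivalences between simplicial sets with weak equivalences `W` and `D` with weak
equivalences `w`, in a strong form: `L` maps monomorphisms to cofibrations and preserves weak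
equivalences among them, and for all `K` and `Y` (fibrant or not) a map `L K ⟶ Y` is a weak
equivalence if and only if its adjunct `K ⟶ R Y` is. -/
def IsQuillenEquivalenceAt (W : MorphismProperty SSet.{0}) {L : SSet.{0} ⥤ D} {R : D ⥤ SSet.{0}}
    (adj : L ⊣ R) (cof w : MorphismProperty D) : Prop :=
  (∀ K K' (i : K ⟶ K'), Mono i → cof (L.map i) ∧ (W i → w (L.map i))) ∧
  ∀ K Y (f : L.obj K ⟶ Y), w f ↔ W (adj.unit.app K ≫ R.map f)

end

end Vale.Agent.P213.H992
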