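import Vale.Agent.P213.H992.Main

/-!
Quillen equivalences between the left Bousfield localizations of the Thomason model structures on
strict `m`-categories and on strict `n`-categories, `n ≤ m`.
-/

open CategoryTheory Simplicial HomotopicalAlgebra Limits SSet.modelCategoryQuillen
  MorphismProperty

namespace Vale.Agent.P213.H992

open H574 (incl)

attribute [local instance] SX.opsOf

variable {n m : ℕ∞}

theorem quillen_incl (hn : 1 ≤ n) (h : n ≤ m) {N : SX.NCat n ⥤ SSet.{0}}
    {M : SX.NCat m ⥤ SSet.{0}}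
    (hN : SX.IsStreetNerve id (fun _ _ => SX.Fun.toFun) N)
    (hM : SX.IsStreetNerve id (fun _ _ => SX.Fun.toFun) M)
    (tN : SX.IsThomason N) (tM : SX.IsThomason M) {t : SX.NCat m ⥤ SX.NCat n}
    (adj : t ⊣ incl h) {V : MorphismProperty (SX.NCat m)}
    (hV : V ∈ Localizations (SX.thC M) (SX.thW M)) :
    H574.IsQuillenEq adj (SX.thC M) V (SX.thC N) (V.inverseImage (incl h)) := by
  obtain ⟨ev, h0⟩ := hN.toSt
  obtain ⟨ev', h1⟩ := (SX.H574M.isStreetNerve_incl h hM).toSt
  let e : N ≅ incl h ⋙ M := St.isoN h0 h1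
  have q : H574.IsQuillenEq adj (SX.thC M) (SX.thW M) (SX.thC N) (SX.thW N) :=
    SX.H574M.quillen h hn hN hM adj 2 2 le_rfl le_rfl
  obtain ⟨W, ⟨F, hW⟩, rfl⟩ := (bijOn_loc tM).surjOn hV
  have hW' := loc_iff.1 hW
  have i1 := hW'.two
  have i2 : W.RespectsIso := respectsIso_of_isStableUnderComposition
      (fun X Y f (hf : IsIso f) => hW'.le _ (whe_of_isIso f))
  have i3 : F.RespectsIso := by
    rw [← hW'.rlp]
    infer_instance
  have eW : (W.inverseImage M).inverseImage (incl h) = W.inverseImage N :=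
    (SX.H574M.map_iff_of_iso e W).symm
  have eF : (F.inverseImage (M ⋙ SSet.ex ⋙ SSet.ex)).inverseImage (incl h) =
      F.inverseImage (N ⋙ SSet.ex ⋙ SSet.ex) :=
    (SX.H574M.map_iff_of_iso (Functor.isoWhiskerRight e (SSet.ex ⋙ SSet.ex)) F).symm
  have wM := wfs_of_isModel (loc_transfer tM hW).2
  have wN := wfs_of_isModel (loc_transfer tN hW).2
  have j1 := wM.wfs₂
  have j2 := wN.wfs₂
  have j3 := wM.two
  refine ⟨fun X Y i hi => ⟨(q.1 X Y i hi).1, fun hw => ?_⟩, fun X Y f hX => ?_⟩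
  · have h2 : (SX.thC N ⊓ W.inverseImage N) (t.map i) := by
      rw [← llp_eq_of_wfs (SX.thC N ⊓ W.inverseImage N)
        (F.inverseImage (N ⋙ SSet.ex ⋙ SSet.ex))]
      intro A B p hp
      rw [adj.hasLiftingProperty_iff]
      rw [← eF] at hp
      have h3 : (F.inverseImage (M ⋙ SSet.ex ⋙ SSet.ex)).llp i := by
        rw [llp_eq_of_wfs (SX.thC M ⊓ W.inverseImage M)
          (F.inverseImage (M ⋙ SSet.ex ⋙ SSet.ex))]
        exact ⟨hi, hw⟩
      exact h3 _ hp
    change (W.inverseImage M).inverseImage (incl h) (t.map i)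
    rw [eW]
    exact h2.2
  · have h2 : SX.thW M (adj.unit.app X) := by
      have h3 := (q.2 X _ (𝟙 (t.obj X)) hX).1 (by
        change SX.whe (N.map (𝟙 _))
        rw [N.map_id, whe_eq']
        exact whe_of_isIso _)
      rw [CategoryTheory.Functor.map_id] at h3
      have h4 : ∀ {Z : SX.NCat m} (g : X ⟶ Z), SX.thW M (g ≫ 𝟙 Z) → SX.thW M g :=
        fun g hg => by rwa [Category.comp_id] at hg
      exact h4 _ h3
    have h5 : W.inverseImage M (adj.unit.app X) := hW.1 _ h2
    exact ((W.inverseImage M).precomp_iff (adj.unit.app X) ((incl h).map f) h5).symm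

end Vale.Agent.P213.H992
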