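import Vale.Agent.P213.Bdl.B14

/-!
Model structures on simplicial sets whose cofibrations are the monomorphisms and whose weak
equivalences contain the weak homotopy equivalences: homotopy invariance of the fibrations.
-/

open CategoryTheory MonoidalCategory CartesianMonoidalCategory Simplicial
  HomotopicalAlgebra Limits SSet SSet.modelCategoryQuillen MorphismProperty

namespace Vale.Agent.P213.H992

section crit

variable {D : Type 1} [Category.{0} D] {cof w fib : MorphismProperty D}

/-- The axioms of a model structure in terms of weak factorization systems. -/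
structure Wfs (cof w fib : MorphismProperty D) : Prop where
  lim : HasFiniteLimits D
  colim : HasFiniteColimits D
  two : w.HasTwoOutOfThreeProperty
  retr : w.IsStableUnderRetracts
  wfs₁ : IsWeakFactorizationSystem cof (fib ⊓ w)
  wfs₂ : IsWeakFactorizationSystem (cof ⊓ w) fib

theorem wfs_of_isModel (h : SX.IsModel cof w fib) : Wfs cof w fib := by
  obtain ⟨M, rfl, rfl, rfl⟩ := h
  exact ⟨inferInstance, inferInstance, inferInstance, inferInstance,
    inferInstanceAs (IsWeakFactorizationSystem (cofibrations D) (trivialFibrations D)),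
    inferInstanceAs (IsWeakFactorizationSystem (trivialCofibrations D) (fibrations D))⟩

theorem isModel_of_wfs (h1 : HasFiniteLimits D) (h2 : HasFiniteColimits D)
    (h3 : w.HasTwoOutOfThreeProperty) (h4 : IsWeakFactorizationSystem cof (fib ⊓ w))
    (h5 : IsWeakFactorizationSystem (cof ⊓ w) fib) : SX.IsModel cof w fib := by
  let c1 : CategoryWithFibrations D := ⟨fib⟩
  let c2 : CategoryWithCofibrations D := ⟨cof⟩
  let c3 : CategoryWithWeakEquivalences D := ⟨w⟩
  have i1 : (weakEquivalences D).HasTwoOutOfThreeProperty := h3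
  have i2 : IsWeakFactorizationSystem (cofibrations D) (trivialFibrations D) := h4
  have i3 : IsWeakFactorizationSystem (trivialCofibrations D) (fibrations D) := h5
  exact ⟨ModelCategory.mk' D, rfl, rfl, rfl⟩

/-- A weak factorization system from factorizations and the equality `R.llp = L`, if `R` is
stable under retracts. -/
theorem wfs_of_llp {L R : MorphismProperty D} (h1 : HasFactorization L R) (h2 : R.llp = L)
    (h3 : R.IsStableUnderRetracts) : IsWeakFactorizationSystem L R := by
  subst h2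
  exact IsWeakFactorizationSystem.mk' _ _ fun i p hi hp => hi p hp

/-- The trivial cofibrations of a model structure are determined by factorizations. -/
theorem isModel_of_fac (h1 : HasFiniteLimits D) (h2 : HasFiniteColimits D)
    (h3 : w.HasTwoOutOfThreeProperty) (h4 : IsWeakFactorizationSystem cof (fib ⊓ w))
    (h5 : w.IsStableUnderRetracts) (h6 : fib.IsStableUnderRetracts)
    (h7 : ∀ ⦃X Y : D⦄ (f : X ⟶ Y), ∃ (Z : D) (i : X ⟶ Z) (p : Z ⟶ Y),
      fib.llp i ∧ w i ∧ fib p ∧ i ≫ p = f) : SX.IsModel cof w fib := by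
  have h8 : fib.llp ≤ w := by
    intro X Y f hf
    obtain ⟨Z, i, p, hi, hw, hp, hfac⟩ := h7 f
    have : HasLiftingProperty f p := hf p hp
    exact MorphismProperty.of_retract (RetractArrow.ofLeftLiftingProperty hfac) hw
  have h9 : fib.llp = cof ⊓ w := by
    apply le_antisymm
    · intro X Y f hf
      refine ⟨?_, h8 _ hf⟩
      rw [← llp_eq_of_wfs cof (fib ⊓ w)]
      exact antitone_llp inf_le_left _ hf
    · rintro X Y f ⟨hf1, hf2⟩
      obtain ⟨Z, i, p, hi, hw, hp, hfac⟩ := h7 f
      have hpw : w p := by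
        refine w.of_precomp i p hw ?_
        rw [hfac]
        exact hf2
      have : HasLiftingProperty f p := by
        rw [← llp_eq_of_wfs cof (fib ⊓ w)] at hf1
        exact hf1 p ⟨hp, hpw⟩
      exact MorphismProperty.of_retract (RetractArrow.ofLeftLiftingProperty hfac) hi
  refine isModel_of_wfs h1 h2 h3 h4 (wfs_of_llp ⟨fun {X Y} f => ?_⟩ h9 h6)
  obtain ⟨Z, i, p, hi, hw, hp, hfac⟩ := h7 f
  exact ⟨⟨Z, i, p, hfac, by rw [← h9]; exact hi, hp⟩⟩

end crit

section loc

/-- A left Bousfield localization of the Kan-Quillen model structure. -/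
structure Loc (W F : MorphismProperty SSet.{0}) : Prop where
  le : P213.whe.{0} ≤ W
  wfs : Wfs (monomorphisms SSet.{0}) W F

variable {W F : MorphismProperty SSet.{0}} (h : Loc W F)

include h

theorem Loc.llp : F.llp = monomorphisms SSet.{0} ⊓ W :=
  have := h.wfs.wfs₂
  llp_eq_of_wfs _ _

theorem Loc.rlp : (monomorphisms SSet.{0} ⊓ W).rlp = F :=
  have := h.wfs.wfs₂
  rlp_eq_of_wfs _ _

theorem Loc.triv : F ⊓ W = I.rlp := by
  have := h.wfs.wfs₁
  rw [← rlp_eq_of_wfs (monomorphisms SSet.{0}) (F ⊓ W), SSet.rlp_monomorphisms]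

theorem Loc.rlpI_le : I.rlp ≤ F := by
  rw [← h.triv]
  exact inf_le_left

theorem Loc.kan : F ≤ kanFib := by
  rw [← h.rlp]
  refine antitone_rlp ?_
  intro X Y f hf
  have h1 : anodyneExtensions f := by
    rw [anodyneExtensions_eq_llp_rlp]
    exact fun _ _ p hp => hp f hf
  exact ⟨anodyne_mono h1, h.le _ (anodyne_le_whe _ h1)⟩

theorem Loc.two : W.HasTwoOutOfThreeProperty := h.wfs.two

/-- Homotopy invariance of the fibrations of a left Bousfield localization. -/
theorem Loc.inv {K Z B : SSet.{0}} {w : K ⟶ Z} {q : Z ⟶ B} (hq : kanFib q) (hw : P213.whe w)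
    (hp : F (w ≫ q)) : F q := by
  have hpk : kanFib (w ≫ q) := h.kan _ hp
  let d := MorphismProperty.factorizationData anodyneExtensions.{0} kanFib.{0} w
  have hk : anodyneExtensions d.i := d.hi
  have ht : kanFib d.p := d.hp
  have hkt : d.i ≫ d.p = w := d.fac
  have htw : P213.whe d.p := (anodyne_le_whe _ hk).cancel_pre (by rw [hkt]; exact hw)
  have htI : I.rlp d.p := rlpI_of_kanFib_of_whe _ ht htw
  have hkm := anodyne_mono hk
  have htq : kanFib (d.p ≫ q) := J.{0}.rlp.comp_mem _ _ ht hq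
  -- the retraction
  have hl1 : HasLiftingProperty d.i (w ≫ q) := anodyneExtensions.hasLift hk hpk
  have sq1 : CommSq (𝟙 K) d.i (w ≫ q) (d.p ≫ q) := ⟨by rw [Category.id_comp, reassoc_of% hkt]⟩
  let r : d.Z ⟶ K := sq1.lift
  have hr1 : d.i ≫ r = 𝟙 K := sq1.fac_left
  have hr2 : r ≫ w ≫ q = d.p ≫ q := sq1.fac_right
  obtain ⟨H, hH0, hH1, -, hH3⟩ := lift_cyl₀₁_of_anodyne d.i hk htq (r ≫ d.i) (𝟙 d.Z)
    (fst _ _ ≫ d.i) (fst _ _ ≫ d.p ≫ q)
    (by rw [ι₀_fst_assoc, reassoc_of% hr1])
    (by rw [ι₀_fst_assoc, Category.assoc, reassoc_of% hkt, hr2])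
    (by rw [ι₁_fst_assoc, Category.comp_id])
    (by rw [ι₁_fst_assoc, Category.id_comp])
    (by rw [whiskerRight_fst_assoc, Category.assoc])
  rw [← h.rlp]
  intro A E i hi
  have him : Mono i := hi.1
  refine ⟨fun {u v} sq => ?_⟩
  -- lift `u` to `d.Z`
  have hl2 : HasLiftingProperty (initial.to A) d.p := by
    rw [← SSet.rlp_monomorphisms] at htI
    exact htI _ (AS.mono_initial_to A)
  have sq2 : CommSq (initial.to d.Z) (initial.to A) d.p u := ⟨initialIsInitial.hom_ext _ _⟩
  let u' : A ⟶ d.Z := sq2.lift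
  have hu' : u' ≫ d.p = u := sq2.fac_right
  have hl3 : HasLiftingProperty i (w ≫ q) := by
    rw [← h.rlp] at hp
    exact hp i hi
  have sq3 : CommSq (u' ≫ r) i (w ≫ q) v := ⟨by
    rw [Category.assoc, hr2, reassoc_of% hu', sq.w]⟩
  let l : E ⟶ K := sq3.lift
  have hl4 : i ≫ l = u' ≫ r := sq3.fac_left
  have hl5 : l ≫ w ≫ q = v := sq3.fac_right
  obtain ⟨L, -, hL1, hL2⟩ := lift_cyl₀ i htq (l ≫ d.i) (u' ▷ _ ≫ H) (fst _ _ ≫ v)
    (by rw [ι₀_comp_assoc, hH0, reassoc_of% hl4])
    (by rw [ι₀_fst_assoc, Category.assoc, reassoc_of% hkt, hl5])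
    (by rw [whiskerRight_fst_assoc, Category.assoc, hH3, whiskerRight_fst_assoc,
      reassoc_of% hu', sq.w])
  refine ⟨⟨⟨ι₁ ≫ L ≫ d.p, ?_, ?_⟩⟩⟩
  · rw [← ι₁_comp_assoc, reassoc_of% hL1, ι₁_comp_assoc, reassoc_of% hH1, hu']
  · rw [Category.assoc, Category.assoc, hL2, ι₁_fst_assoc]

end loc

end Vale.Agent.P213.H992
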