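import Vale.Agent.P213.H992.Defs
import Vale.Agent.P213.H992.Conv
import Vale.Agent.P213.H574.Main

/-!
The left Bousfield localizations of the Thomason model structures.
-/

open CategoryTheory Simplicial HomotopicalAlgebra Limits SSet.modelCategoryQuillen
  MorphismProperty

namespace Vale.Agent.P213.H992

open H574 (incl)

section

theorem whe_eq' : SX.whe = P213.whe.{0} := St.whe_eq.symm

theorem loc_iff {W F : MorphismProperty SSet.{0}} :
    IsLocalization (monomorphisms SSet.{0}) SX.whe W F ↔ Loc W F := by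
  constructor
  · rintro ⟨h1, h2⟩
    exact ⟨by rw [← whe_eq']; exact h1, wfs_of_isModel h2⟩
  · rintro ⟨h1, h2⟩
    have := h2.lim
    have := h2.colim
    exact ⟨by rw [whe_eq']; exact h1, isModel_of_wfs h2.lim h2.colim h2.two h2.wfs₁ h2.wfs₂⟩

theorem loc_ex {W : MorphismProperty SSet.{0}} [W.HasTwoOutOfThreeProperty]
    (h : P213.whe.{0} ≤ W) {X Y : SSet.{0}} (f : X ⟶ Y) : W (SSet.ex.map f) ↔ W f := by
  have h1 : f ≫ toEx.app Y = toEx.app X ≫ SSet.ex.map f := toEx.naturality f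
  rw [← W.precomp_iff _ _ (h _ (anodyne_le_whe _ (anodyne_toEx X))), ← h1,
    W.postcomp_iff _ _ (h _ (anodyne_le_whe _ (anodyne_toEx Y)))]

end

section

variable {D : Type 1} [Category.{0} D] {N : D ⥤ SSet.{0}}

theorem loc_R {W : MorphismProperty SSet.{0}} [W.HasTwoOutOfThreeProperty]
    (h : P213.whe.{0} ≤ W) : W.inverseImage (N ⋙ SSet.ex ⋙ SSet.ex) = W.inverseImage N := by
  ext X Y f
  exact (loc_ex h (SSet.ex.map (N.map f))).trans (loc_ex h (N.map f))

theorem pair_of (hN : SX.IsThomason N) {c : SSet.{0} ⥤ D} (hc : c ⊣ N) :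
    Pair ((SSet.sdExAdjunction.comp SSet.sdExAdjunction).comp hc) (SX.thC N) (SX.thW N) (SX.thF N) where
  model := wfs_of_isModel hN.2.1
  w_iff X Y f := by
    change SX.whe (N.map f) ↔ P213.whe (SSet.ex.map (SSet.ex.map (N.map f)))
    rw [whe_eq', whe_ex_iff, whe_ex_iff]
  fib_iff X Y f := Iff.rfl
  unit K := by
    have h1 := ((hN.2.2.2.2.2 c hc).1.2 K _ (𝟙 _)).1 (by
      change SX.whe (N.map (𝟙 _))
      rw [N.map_id, whe_eq']
      exact whe_of_isIso _)
    rw [CategoryTheory.Functor.map_id] at h1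
    have h2 : ∀ {Z : SSet.{0}} (g : K ⟶ Z), SX.whe (g ≫ 𝟙 Z) → P213.whe g := fun g hg => by
      rwa [Category.comp_id, whe_eq'] at hg
    exact h2 _ h1
  left A B A' B' t l r b sq ht hl := (hN.2.2.1 _ _ _ _ _ _ _ _).1 sq ht hl

theorem loc_transfer (hN : SX.IsThomason N) {W F : MorphismProperty SSet.{0}}
    (h : IsLocalization (monomorphisms SSet.{0}) SX.whe W F) :
    IsLocalization (SX.thC N) (SX.thW N) (W.inverseImage N)
      (F.inverseImage (N ⋙ SSet.ex ⋙ SSet.ex)) := by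
  obtain ⟨c, ⟨hc⟩⟩ := hN.2.2.2.2.1
  have h' := loc_iff.1 h
  have i1 := h'.two
  refine ⟨fun X Y f hf => h.1 _ hf, ?_⟩
  have h1 := (pair_of hN hc).transfer h'
  rw [loc_R h'.le] at h1
  exact h1

theorem loc_leftProper (hN : SX.IsThomason N) {V G : MorphismProperty D}
    (h : IsLocalization (SX.thC N) (SX.thW N) V G) : IsLeftProper (SX.thC N) V := by
  obtain ⟨c, ⟨hc⟩⟩ := hN.2.2.2.2.1
  intro A B A' B' t l r b sq ht hl
  exact (pair_of hN hc).left_loc h.1 (wfs_of_isModel h.2) t l r b sq ht hl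

theorem loc_rightProper (hN : SX.IsThomason N) {W F : MorphismProperty SSet.{0}}
    (h : IsLocalization (monomorphisms SSet.{0}) SX.whe W F) (hr : IsRightProper W F) :
    IsRightProper (W.inverseImage N) (F.inverseImage (N ⋙ SSet.ex ⋙ SSet.ex)) := by
  obtain ⟨c, ⟨hc⟩⟩ := hN.2.2.2.2.1
  have h' := loc_iff.1 h
  have i1 := h'.two
  have := ((SSet.sdExAdjunction.comp SSet.sdExAdjunction).comp hc).rightAdjoint_preservesLimits
  intro A B A' B' t l r b sq hb hw
  have h1 := hr _ _ _ _ _ _ _ _ (sq.map (N ⋙ SSet.ex ⋙ SSet.ex)) hb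
    ((loc_ex h'.le _).2 ((loc_ex h'.le _).2 hw))
  exact (loc_ex h'.le _).1 ((loc_ex h'.le _).1 h1)

theorem loc_quillen (hN : SX.IsThomason N) {W F : MorphismProperty SSet.{0}}
    (h : IsLocalization (monomorphisms SSet.{0}) SX.whe W F) {c : SSet.{0} ⥤ D} (hc : c ⊣ N) :
    IsQuillenEquivalenceAt W ((SSet.sdExAdjunction.comp SSet.sdExAdjunction).comp hc)
      (SX.thC N) (W.inverseImage N) := by
  have h' := loc_iff.1 h
  have i1 := h'.two
  have hP := pair_of hN hc
  have key : ∀ (K : SSet.{0}) (Y : D)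
      (f : (((SSet.sd ⋙ SSet.sd) ⋙ c).obj K) ⟶ Y), W.inverseImage N f ↔
      W (((SSet.sdExAdjunction.comp SSet.sdExAdjunction).comp hc).unit.app K ≫
        (N ⋙ SSet.ex ⋙ SSet.ex).map f) := by
    intro K Y f
    have h1 := W.precomp_iff (eta ((SSet.sdExAdjunction.comp SSet.sdExAdjunction).comp hc) K)
      ((N ⋙ SSet.ex ⋙ SSet.ex).map f) (h'.le _ (hP.unit K))
    refine Iff.trans ?_ h1.symm
    exact ((loc_ex h'.le (SSet.ex.map (N.map f))).trans (loc_ex h'.le (N.map f))).symm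
  refine ⟨fun K K' i hi => ⟨hP.cof_map i, fun hw => ?_⟩, key⟩
  rw [key]
  have h1 := eta_nat ((SSet.sdExAdjunction.comp SSet.sdExAdjunction).comp hc) i
  have h2 : W (eta ((SSet.sdExAdjunction.comp SSet.sdExAdjunction).comp hc) K ≫
      (N ⋙ SSet.ex ⋙ SSet.ex).map (((SSet.sd ⋙ SSet.sd) ⋙ c).map i)) := by
    refine (congrArg (fun g => W g) h1).mpr ?_
    exact W.comp_mem _ _ hw (h'.le _ (hP.unit K'))
  exact h2

theorem loc_map (hN : SX.IsThomason N) {W F : MorphismProperty SSet.{0}}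
    (h : IsLocalization (monomorphisms SSet.{0}) SX.whe W F) {c : SSet.{0} ⥤ D} (hc : c ⊣ N)
    {K K' : SSet.{0}} (f : K ⟶ K') :
    W.inverseImage N (((SSet.sd ⋙ SSet.sd) ⋙ c).map f) ↔ W f := by
  have h' := loc_iff.1 h
  have i1 := h'.two
  have hP := pair_of hN hc
  have h1 := eta_nat ((SSet.sdExAdjunction.comp SSet.sdExAdjunction).comp hc) f
  have h2 := W.precomp_iff (eta ((SSet.sdExAdjunction.comp SSet.sdExAdjunction).comp hc) K)
      ((N ⋙ SSet.ex ⋙ SSet.ex).map (((SSet.sd ⋙ SSet.sd) ⋙ c).map f)) (h'.le _ (hP.unit K))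
  have h3 := W.postcomp_iff f (eta ((SSet.sdExAdjunction.comp SSet.sdExAdjunction).comp hc) K')
    (h'.le _ (hP.unit K'))
  refine Iff.trans ?_ h3
  refine Iff.trans ?_ (congrArg (fun g => W g) h1).to_iff
  refine Iff.trans ?_ h2.symm
  exact ((loc_ex h'.le (SSet.ex.map (N.map _))).trans (loc_ex h'.le (N.map _))).symm

/-- The order of left Bousfield localizations. -/
theorem le_iff_loc (hN : SX.IsThomason N) {W W' : MorphismProperty SSet.{0}}
    (h : W ∈ Localizations (monomorphisms SSet.{0}) SX.whe)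
    (h' : W' ∈ Localizations (monomorphisms SSet.{0}) SX.whe) :
    W.inverseImage N ≤ W'.inverseImage N ↔ W ≤ W' := by
  obtain ⟨F, h⟩ := h
  obtain ⟨F', h'⟩ := h'
  obtain ⟨c, ⟨hc⟩⟩ := hN.2.2.2.2.1
  exact ⟨fun hle K K' f hf => (loc_map hN h' hc f).1 (hle _ ((loc_map hN h hc f).2 hf)),
    fun hle X Y f hf => hle _ hf⟩

/-- Left Bousfield localizations of the two model structures. -/
theorem bijOn_loc (hN : SX.IsThomason N) :
    Set.BijOn (fun W => W.inverseImage N) (Localizations (monomorphisms SSet.{0}) SX.whe)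
      (Localizations (SX.thC N) (SX.thW N)) := by
  obtain ⟨c, ⟨hc⟩⟩ := hN.2.2.2.2.1
  have hP := pair_of hN hc
  refine ⟨?_, ?_, ?_⟩
  · rintro W ⟨F, h⟩
    exact ⟨_, loc_transfer hN h⟩
  · intro W h W' h' e
    exact le_antisymm ((le_iff_loc hN h h').1 (le_of_eq e))
      ((le_iff_loc hN h' h).1 (le_of_eq e.symm))
  · rintro V ⟨G, h⟩
    have hV := wfs_of_isModel h.2
    have h1 := hP.conv h.1 hV
    have i1 := h1.two
    have i2 := hV.two
    refine ⟨V.inverseImage _, ⟨_, loc_iff.2 h1⟩, ?_⟩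
    change (V.inverseImage ((SSet.sd ⋙ SSet.sd) ⋙ c)).inverseImage N = V
    rw [← loc_R h1.le]
    ext X Y f
    exact hP.map_eps_iff h.1 f

end

section

attribute [local instance] SX.opsOf

variable {n m : ℕ∞}

/-- The left Bousfield localizations of the Thomason model structures on strict `n`-categories and
on strict `m`-categories, `n ≤ m`, correspond to each other. -/
theorem bijOn_incl (h : n ≤ m) {N : SX.NCat n ⥤ SSet.{0}} {M : SX.NCat m ⥤ SSet.{0}}
    (hN : SX.IsStreetNerve id (fun _ _ => SX.Fun.toFun) N)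
    (hM : SX.IsStreetNerve id (fun _ _ => SX.Fun.toFun) M)
    (tN : SX.IsThomason N) (tM : SX.IsThomason M) :
    Set.BijOn (fun V => V.inverseImage (incl h)) (Localizations (SX.thC M) (SX.thW M))
      (Localizations (SX.thC N) (SX.thW N)) := by
  obtain ⟨ev, h0⟩ := hN.toSt
  obtain ⟨ev', h1⟩ := (SX.H574M.isStreetNerve_incl h hM).toSt
  let e : N ≅ incl h ⋙ M := St.isoN h0 h1
  have bM := bijOn_loc tM
  have bN := bijOn_loc tN
  have key : ∀ W ∈ Localizations (monomorphisms SSet.{0}) SX.whe,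
      (W.inverseImage M).inverseImage (incl h) = W.inverseImage N := by
    rintro W ⟨F, hW⟩
    have hW' := loc_iff.1 hW
    have i1 := hW'.two
    have i2 : W.RespectsIso := respectsIso_of_isStableUnderComposition
      (fun X Y f (hf : IsIso f) => hW'.le _ (whe_of_isIso f))
    exact (SX.H574M.map_iff_of_iso e W).symm
  refine ⟨?_, ?_, ?_⟩
  · intro V hV
    obtain ⟨W, hW, rfl⟩ := bM.surjOn hV
    change (W.inverseImage M).inverseImage (incl h) ∈ _
    rw [key W hW]
    exact bN.mapsTo hW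
  · intro V hV V' hV' e'
    obtain ⟨W, hW, rfl⟩ := bM.surjOn hV
    obtain ⟨W', hW', rfl⟩ := bM.surjOn hV'
    change (W.inverseImage M).inverseImage (incl h) =
      (W'.inverseImage M).inverseImage (incl h) at e'
    rw [key W hW, key W' hW'] at e'
    have e2 := bN.injOn hW hW' e'
    rw [e2]
  · intro V hV
    obtain ⟨W, hW, rfl⟩ := bN.surjOn hV
    exact ⟨W.inverseImage M, bM.mapsTo hW, key W hW⟩

end

end Vale.Agent.P213.H992
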