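import Vale.Agent.P213.H992.Loc

/-!
Left Bousfield localizations of the Kan-Quillen model structure and of a Quillen equivalent model
structure whose weak equivalences and fibrations are detected by the right adjoint correspond to
each other.
-/

open CategoryTheory Simplicial HomotopicalAlgebra Limits SSet.modelCategoryQuillen
  MorphismProperty

namespace Vale.Agent.P213.H992

variable {D : Type 1} [Category.{0} D] {L : SSet.{0} ⥤ D} {R : D ⥤ SSet.{0}}

section

variable (adj : L ⊣ R)

/-- The unit. -/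
def eta (K : SSet.{0}) : K ⟶ R.obj (L.obj K) := adj.unit.app K

/-- The counit. -/
def eps (X : D) : L.obj (R.obj X) ⟶ X := adj.counit.app X

@[reassoc]
theorem eta_nat {K K' : SSet.{0}} (f : K ⟶ K') :
    eta adj K ≫ R.map (L.map f) = f ≫ eta adj K' := adj.unit_naturality f

@[reassoc]
theorem eps_nat {X Y : D} (f : X ⟶ Y) :
    L.map (R.map f) ≫ eps adj Y = eps adj X ≫ f := adj.counit_naturality f

@[reassoc]
theorem eta_eps (X : D) : eta adj (R.obj X) ≫ R.map (eps adj X) = 𝟙 (R.obj X) :=
  adj.right_triangle_components X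

@[reassoc]
theorem map_eta_eps (K : SSet.{0}) : L.map (eta adj K) ≫ eps adj (L.obj K) = 𝟙 (L.obj K) :=
  adj.left_triangle_components K

end

/-- A Quillen equivalence `L ⊣ R` with the Kan-Quillen model structure such that `R` detects weak
equivalences and fibrations, in a strong form, and the model structure of `D` is left proper. -/
structure Pair (adj : L ⊣ R) (cof w fib : MorphismProperty D) : Prop where
  model : Wfs cof w fib
  w_iff : ∀ ⦃X Y : D⦄ (f : X ⟶ Y), w f ↔ P213.whe.{0} (R.map f)
  fib_iff : ∀ ⦃X Y : D⦄ (f : X ⟶ Y), fib f ↔ kanFib.{0} (R.map f)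
  unit : ∀ K, P213.whe.{0} (eta adj K)
  left : ∀ ⦃A B A' B' : D⦄ (t : A ⟶ B) (l : A ⟶ A') (r : B ⟶ B') (b : A' ⟶ B'),
    IsPushout t l r b → cof t → w l → w r

variable {adj : L ⊣ R} {cof w fib : MorphismProperty D} (hP : Pair adj cof w fib)

include hP

namespace Pair

theorem counit (X : D) : w (eps adj X) := by
  rw [hP.w_iff]
  refine P213.whe.of_precomp (eta adj (R.obj X)) _ (hP.unit _) ?_
  rw [eta_eps]
  exact whe_of_isIso _

theorem two : w.HasTwoOutOfThreeProperty := hP.model.two

theorem whe_adj {K : SSet.{0}} {Y : D} (b : L.obj K ⟶ Y) :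
    P213.whe.{0} (eta adj K ≫ R.map b) ↔ w b := by
  rw [P213.whe.precomp_iff _ _ (hP.unit K), hP.w_iff]

theorem map_w {K K' : SSet.{0}} (f : K ⟶ K') : w (L.map f) ↔ P213.whe.{0} f := by
  rw [← hP.whe_adj, eta_nat, P213.whe.postcomp_iff _ _ (hP.unit K')]

theorem triv_iff {X Y : D} (f : X ⟶ Y) : (fib ⊓ w) f ↔ I.rlp (R.map f) := by
  constructor
  · rintro ⟨h1, h2⟩
    exact rlpI_of_kanFib_of_whe _ ((hP.fib_iff f).1 h1) ((hP.w_iff f).1 h2)
  · intro h
    exact ⟨(hP.fib_iff f).2 (AS.kanFib_of_rlpI _ h), (hP.w_iff f).2 (rlpI_le_whe _ h)⟩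

theorem llp_triv : (fib ⊓ w).llp = cof :=
  have := hP.model.wfs₁
  llp_eq_of_wfs _ _

theorem llp_fib : fib.llp = cof ⊓ w :=
  have := hP.model.wfs₂
  llp_eq_of_wfs _ _

theorem cof_map {K K' : SSet.{0}} (i : K ⟶ K') [Mono i] : cof (L.map i) := by
  rw [← hP.llp_triv]
  intro X Y p hp
  rw [adj.hasLiftingProperty_iff]
  have h1 := (hP.triv_iff p).1 hp
  rw [← SSet.rlp_monomorphisms] at h1
  exact h1 i ‹_›

/-- Every left Bousfield localization of the Kan-Quillen model structure transfers. -/
theorem transfer {W F : MorphismProperty SSet.{0}} (h : Loc W F) :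
    SX.IsModel cof (W.inverseImage R) (F.inverseImage R) := by
  have i2 := h.two
  have i3 := h.wfs.retr
  have i4 : F.IsStableUnderRetracts := by
    rw [← h.rlp]
    infer_instance
  have i5 := hP.model.colim
  have i6 := hP.model.wfs₂
  have i7 := h.wfs.wfs₂
  have hle : F.inverseImage R ≤ fib := fun X Y f hf => (hP.fib_iff f).2 (h.kan _ hf)
  refine isModel_of_fac hP.model.lim hP.model.colim inferInstance ?_ inferInstance inferInstance
    fun X Y f => ?_
  · have e : F.inverseImage R ⊓ W.inverseImage R = fib ⊓ w := by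
      ext X Y f
      rw [hP.triv_iff, ← h.triv]
      rfl
    rw [e]
    exact hP.model.wfs₁
  · let d := factorizationData (monomorphisms SSet.{0} ⊓ W) F (R.map f)
    have hd : d.i ≫ d.p = R.map f := d.fac
    have him : Mono d.i := d.hi.1
    have sq := IsPushout.of_hasPushout (L.map d.i) (eps adj X)
    set b : L.obj d.Z ⟶ pushout (L.map d.i) (eps adj X) := pushout.inl _ _
    set j : X ⟶ pushout (L.map d.i) (eps adj X) := pushout.inr _ _
    have hb : w b := hP.left _ _ _ _ sq (hP.cof_map d.i) (hP.counit X)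
    let dd := sq.desc (L.map d.p ≫ eps adj Y) f (by
      rw [← L.map_comp_assoc, hd, eps_nat])
    have hdd₁ : b ≫ dd = L.map d.p ≫ eps adj Y := sq.inl_desc _ _ _
    have hdd₂ : j ≫ dd = f := sq.inr_desc _ _ _
    let e := factorizationData (cof ⊓ w) fib dd
    have he : e.i ≫ e.p = dd := e.fac
    let α : d.Z ⟶ R.obj _ := eta adj d.Z ≫ R.map b
    have hα : P213.whe.{0} α := (hP.whe_adj b).2 hb
    have haα : d.i ≫ α = R.map j := by
      change d.i ≫ eta adj d.Z ≫ R.map b = _
      rw [← eta_nat_assoc, ← R.map_comp, sq.w, R.map_comp, eta_eps_assoc]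
    have hαp : α ≫ R.map dd = d.p := by
      change (eta adj d.Z ≫ R.map b) ≫ _ = _
      rw [Category.assoc, ← R.map_comp, hdd₁, R.map_comp, eta_nat_assoc, eta_eps,
        Category.comp_id]
    refine ⟨e.Z, j ≫ e.i, e.p, ?_, ?_, ?_, ?_⟩
    · have h1 : (F.inverseImage R).llp (L.map d.i) := by
        intro A B p hp
        rw [adj.hasLiftingProperty_iff]
        have h2 : F.llp d.i := by
          rw [h.llp]
          exact d.hi
        exact h2 _ hp
      have h2 : (F.inverseImage R).llp j :=
        (F.inverseImage R).llp.of_isPushout sq.flip h1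
      have h3 : (F.inverseImage R).llp e.i := by
        refine antitone_llp hle _ ?_
        rw [hP.llp_fib]
        exact e.hi
      exact (F.inverseImage R).llp.comp_mem _ _ h2 h3
    · change W (R.map (j ≫ e.i))
      rw [R.map_comp, ← haα, Category.assoc]
      exact W.comp_mem _ _ d.hi.2 (h.le _ (P213.whe.comp_mem _ _ hα ((hP.w_iff _).1 e.hi.2)))
    · refine h.inv (w := α ≫ R.map e.i) ((hP.fib_iff _).1 e.hp)
        (P213.whe.comp_mem _ _ hα ((hP.w_iff _).1 e.hi.2)) ?_
      rw [Category.assoc, ← R.map_comp, he, hαp]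
      exact d.hp
    · rw [Category.assoc, he, hdd₂]

end Pair

end Vale.Agent.P213.H992
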